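import Vale.Agent.P049.Bdl.B1

/-! For every `d ≥ 3` there is a deterministic polynomial time construction of simple `d`-regular
graphs on every order `n ≥ 4 d ^ 3` with `d n` even, which satisfy the Ramanujan condition up to
boundedly many negative eigenvalues: all nonconstant eigenvalues are at most `2 √(d-1)`, and at
most one (`n` even), at most `d / 2 + 1` (`n` odd) are less than `-2 √(d-1)`. For even `n` the
graph is bipartite Ramanujan. -/

namespace Vale.Agent.Results.P049.AllOrdersFewExc

open Vale.Agent.P049

theorem result (d : ℕ) (hd : 3 ≤ d) :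
    ∃ f : ℕ → List Bool,
      (∃ M : Turing.TM2ComputableInPolyTime (fun n : ℕ => List.replicate n true)
        (id : List Bool → List Bool) f, ∀ k, Finite (M.tm.Γ k)) ∧
      ∀ n : ℕ, 4 * d ^ 3 ≤ n → Even (d * n) →
        ∃ (G : SimpleGraph (Fin n)) (_ : DecidableRel G.Adj),
          IsRamanujanUpTo d (if Even n then 1 else d / 2 + 1) G ∧
          (Even n → IsBipartiteRamanujan d G) ∧
          f n = (List.ofFn fun i : Fin n => List.ofFn fun j : Fin n =>
            decide (G.Adj i j)).flatten :=
  ⟨bitsAll d, exists_tm2_all d, fun _ hn he => bitsAll_correct2 hd hn he⟩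

end Vale.Agent.Results.P049.AllOrdersFewExc
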