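import Vale.Agent.P049.Bdl.B1

/-! For every `d ≥ 3` there is a deterministic polynomial time construction of simple `d`-regular
bipartite Ramanujan graphs on every even order `n ≥ 2 d ^ 3`. -/

namespace Vale.Agent.Results.P049.BipartiteAlgo

open Vale.Agent.P049

theorem result (d : ℕ) (hd : 3 ≤ d) :
    ∃ f : ℕ → List Bool,
      (∃ M : Turing.TM2ComputableInPolyTime (fun n : ℕ => List.replicate n true)
        (id : List Bool → List Bool) f, ∀ k, Finite (M.tm.Γ k)) ∧
      ∀ n : ℕ, 2 * d ^ 3 ≤ n → Even n →
        ∃ (G : SimpleGraph (Fin n)) (_ : DecidableRel G.Adj), IsBipartiteRamanujan d G ∧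
          f n = (List.ofFn fun i : Fin n => List.ofFn fun j : Fin n =>
            decide (G.Adj i j)).flatten :=
  ⟨bitsOf d, exists_tm2_bits d, fun _ hn he => bitsOf_correct hd hn he⟩

end Vale.Agent.Results.P049.BipartiteAlgo
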